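import Vale.Agent.P130.Flat.Stage.Trig

/-!
P130, M8: integrable functions on the circle of length one are determined by their coefficients.
-/

namespace Vale.Agent.P130.Flat.Rank

open MeasureTheory
open scoped ComplexConjugate

noncomputable section

instance : IsProbabilityMeasure leb := ⟨by simp [leb]⟩

theorem ex_eq_fourier (n : ℤ) (θ : ℝ) :
    ex ((n : ℝ) * θ) = fourier n (θ : AddCircle (1 : ℝ)) := by
  rw [fourier_coe_apply, ex]
  push_cast
  congr 1
  ring

/-- An integrable function with vanishing coefficients vanishes. -/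
theorem eq_zero_of_coeff {h : ℝ → ℂ} (hh : Integrable h leb)
    (h0 : ∀ n : ℤ, ∫ θ, ex ((n : ℝ) * θ) * h θ ∂leb = 0) : h =ᵐ[leb] 0 := by
  have hint : ∀ g : C(AddCircle (1 : ℝ), ℂ), Integrable (fun θ : ℝ => g θ * h θ) leb := fun g =>
    hh.bdd_mul ((map_continuous g).comp (AddCircle.continuous_mk' _)).aestronglyMeasurable
      (Filter.Eventually.of_forall fun θ => g.norm_coe_le_norm _)
  set L : C(AddCircle (1 : ℝ), ℂ) →L[ℂ] ℂ := LinearMap.mkContinuous
    { toFun := fun g => ∫ θ, g (θ : AddCircle (1 : ℝ)) * h θ ∂leb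
      map_add' := fun g g' => by
        simp only [ContinuousMap.add_apply, add_mul]
        exact integral_add (hint g) (hint g')
      map_smul' := fun r g => by
        simp only [ContinuousMap.smul_apply, smul_eq_mul, RingHom.id_apply, mul_assoc]
        exact integral_const_mul r _ }
    (∫ θ, ‖h θ‖ ∂leb) (fun g => by
      refine (norm_integral_le_integral_norm _).trans ?_
      rw [mul_comm, ← integral_const_mul]
      refine integral_mono ((hint g).norm) (hh.norm.const_mul _) fun θ => ?_
      rw [norm_mul]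
      exact mul_le_mul_of_nonneg_right (g.norm_coe_le_norm _) (norm_nonneg _))
  have hL : L = 0 := by
    refine ContinuousLinearMap.ext_on
      (Submodule.dense_iff_topologicalClosure_eq_top.2 span_fourier_closure_eq_top) ?_
    rintro _ ⟨n, rfl⟩
    change ∫ θ, fourier n (θ : AddCircle (1 : ℝ)) * h θ ∂leb = 0
    simp only [← ex_eq_fourier]
    exact h0 n
  have hon : IntegrableOn h (Set.Ioo (0 : ℝ) 1) := by
    rw [leb] at hh
    exact IntegrableOn.mono_set (show IntegrableOn h (Set.Ioc (0 : ℝ) 1) volume from hh) Set.Ioo_subset_Ioc_self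
  have key := isOpen_Ioo.ae_eq_zero_of_integral_contDiff_smul_eq_zero (f := h)
    (μ := (volume : Measure ℝ)) hon.locallyIntegrableOn fun φ hφ hc hs => by
      have hφ0 : φ 0 = 0 := image_eq_zero_of_notMem_tsupport fun m => by simpa using (hs m).1
      have hφ1 : φ 1 = 0 := image_eq_zero_of_notMem_tsupport fun m => by simpa using (hs m).2
      have hg : Continuous (AddCircle.liftIco (1 : ℝ) 0 fun θ => (φ θ : ℂ)) :=
        AddCircle.liftIco_zero_continuous (by simp [hφ0, hφ1])
          (Complex.continuous_ofReal.comp hφ.continuous).continuousOn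
      have hz := congrArg (fun Φ : C(AddCircle (1 : ℝ), ℂ) →L[ℂ] ℂ =>
        Φ ⟨_, hg⟩) hL
      rw [← setIntegral_eq_integral_of_forall_compl_eq_zero (s := Set.Ioc (0 : ℝ) 1) fun x hx => by
        rw [image_eq_zero_of_notMem_tsupport (fun m => hx ⟨(hs m).1, (hs m).2.le⟩), zero_smul]]
      refine Eq.trans (integral_congr_ae ?_) hz
      filter_upwards [ae_restrict_mem measurableSet_Ioc] with θ hθ
      simp only [ContinuousMap.coe_mk, Complex.real_smul]
      rcases hθ.2.lt_or_eq with h1 | h1
      · rw [AddCircle.liftIco_coe_apply ⟨hθ.1.le, by simpa using h1⟩]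
      · subst h1
        rw [AddCircle.coe_period, ← QuotientAddGroup.mk_zero,
          AddCircle.liftIco_coe_apply ⟨le_rfl, by norm_num⟩, hφ0, hφ1]
  rw [Filter.EventuallyEq, leb, ae_restrict_iff' measurableSet_Ioc]
  filter_upwards [key, Measure.ae_ne volume (1 : ℝ)] with θ h1 h2 hθ
  exact h1 ⟨hθ.1, lt_of_le_of_ne hθ.2 h2⟩

end

end Vale.Agent.P130.Flat.Rank
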