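import Vale.Agent.P130.Flat.Interfaces

/-!
P130, M8: what cutting and stacking along a tower provides.
-/

namespace Vale.Agent.P130.Flat

open MeasureTheory Finset

noncomputable section

/-- Bases of the columns of a cutting and stacking transformation: masses, cuts, disjointness of the levels, and
the levels generate. The level `a` of the column `k` is the preimage of the base under the power `-a`. -/
def StackStmt : Prop :=
  ∀ T : Tower, ∃ (X : Type) (_ : MeasurableSpace X) (_ : StandardBorelSpace X) (μ : Measure X)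
    (_ : IsProbabilityMeasure μ) (_ : NullSingletonClass μ) (S : X ≃ᵐ X) (B : ℕ → Set X) (c : ℝ),
    MeasurePreserving S μ μ ∧ 0 < c ∧ (∀ k, MeasurableSet (B k)) ∧
    (∀ k, μ.real (B k) = c / ∏ i ∈ range k, (T.p i : ℝ)) ∧
    (∀ k, ∀ᵐ x ∂μ, (B k).indicator (fun _ => (1 : ℂ)) x = ∑ j ∈ range (T.p k),
      (B (k + 1)).indicator (fun _ => (1 : ℂ)) ((S.toEquiv ^ (-(T.n k j : ℤ)) : Equiv.Perm X) x)) ∧
    (∀ k a, 0 < a → a < T.h k →
      μ (B k ∩ (fun x => (S.toEquiv ^ (-(a : ℤ)) : Equiv.Perm X) x) ⁻¹' B k) = 0) ∧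
    ∀ g : X → ℂ, Integrable g μ → (∀ k a, a < T.h k →
      ∫ x in (fun x => (S.toEquiv ^ (-(a : ℤ)) : Equiv.Perm X) x) ⁻¹' B k, g x ∂μ = 0) → g =ᵐ[μ] 0

end

end Vale.Agent.P130.Flat
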