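import Vale.Agent.P130.Flat.Rank.Interface

/-!
P130, M8: the mixed radix odometer of a tower and the positions of the copies inside the columns.
-/

namespace Vale.Agent.P130.Flat

open MeasureTheory Finset Filter
open scoped ENNReal Topology

noncomputable section

namespace Stack

variable (T : Tower)

/-- The digit sequences. -/
abbrev Dig : Type := ∀ i, Fin (T.p i)

instance (k : ℕ) : NeZero (T.p k) := ⟨by have := T.p_two k; omega⟩

/-- The number of copies of the initial column in the column `m`. -/
def cnt (m : ℕ) : ℕ := ∏ i ∈ range m, T.p i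

theorem cnt_succ (m : ℕ) : cnt T (m + 1) = cnt T m * T.p m := prod_range_succ _ _

theorem cnt_pos (m : ℕ) : 0 < cnt T m := prod_pos fun i _ => by have := T.p_two i; omega

theorem cnt_zero : cnt T 0 = 1 := rfl

theorem cnt_dvd {k m : ℕ} (h : k ≤ m) : cnt T k ∣ cnt T m :=
  prod_dvd_prod_of_subset _ _ _ (range_subset_range.2 h)

theorem two_pow_le_cnt (m : ℕ) : 2 ^ m ≤ cnt T m := by
  induction m with
  | zero => simp [cnt_zero]
  | succ m ih => rw [cnt_succ, pow_succ]; exact Nat.mul_le_mul ih (T.p_two m)

/-- The number read from the first `m` digits. -/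
def num (m : ℕ) (w : Dig T) : ℕ := ∑ i ∈ range m, (w i).val * cnt T i

theorem num_succ (m : ℕ) (w : Dig T) : num T (m + 1) w = num T m w + (w m).val * cnt T m :=
  sum_range_succ _ _

theorem num_lt (m : ℕ) (w : Dig T) : num T m w < cnt T m := by
  induction m with
  | zero => simp [num, cnt_zero]
  | succ m ih =>
    have h : (w m).val + 1 ≤ T.p m := (w m).isLt
    have h2 := Nat.mul_le_mul_right (cnt T m) h
    rw [Nat.add_mul, one_mul] at h2
    rw [num_succ, cnt_succ, mul_comm (cnt T m)]
    omega

theorem num_mod {k m : ℕ} (h : k ≤ m) (w : Dig T) : num T m w % cnt T k = num T k w := by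
  induction m, h using Nat.le_induction with
  | base => exact Nat.mod_eq_of_lt (num_lt T k w)
  | succ m hm ih =>
    obtain ⟨r, hr⟩ := cnt_dvd T hm
    rw [num_succ, hr, ← mul_assoc, mul_comm _ (cnt T k), mul_assoc, Nat.add_mul_mod_self_left, ih]

theorem digit_eq (i : ℕ) (w : Dig T) : num T (i + 1) w / cnt T i = (w i).val := by
  rw [num_succ, Nat.add_mul_div_right _ _ (cnt_pos T i), Nat.div_eq_of_lt (num_lt T i w), zero_add]

theorem ext_num {w v : Dig T} (h : ∀ m, num T m w = num T m v) : w = v := by
  funext i
  apply Fin.ext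
  rw [← digit_eq T i w, ← digit_eq T i v, h]

/-- The odometer. -/
def up (w : Dig T) (i : ℕ) : Fin (T.p i) :=
  ⟨(num T (i + 1) w + 1) % cnt T (i + 1) / cnt T i,
    Nat.div_lt_of_lt_mul (lt_of_lt_of_le (Nat.mod_lt _ (cnt_pos T _)) (cnt_succ T i).le)⟩

/-- The inverse of the odometer. -/
def down (w : Dig T) (i : ℕ) : Fin (T.p i) :=
  ⟨(num T (i + 1) w + (cnt T (i + 1) - 1)) % cnt T (i + 1) / cnt T i,
    Nat.div_lt_of_lt_mul (lt_of_lt_of_le (Nat.mod_lt _ (cnt_pos T _)) (cnt_succ T i).le)⟩

theorem mod_cnt (a m : ℕ) :
    a % cnt T m + a % cnt T (m + 1) / cnt T m * cnt T m = a % cnt T (m + 1) := by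
  have h := Nat.mod_add_div (a % cnt T (m + 1)) (cnt T m)
  rw [Nat.mod_mod_of_dvd _ (cnt_dvd T (Nat.le_succ m))] at h
  rw [mul_comm (a % cnt T (m + 1) / cnt T m)]
  exact h

theorem num_up (m : ℕ) (w : Dig T) : num T m (up T w) = (num T m w + 1) % cnt T m := by
  induction m with
  | zero => simp [num, cnt_zero]
  | succ m ih =>
    rw [num_succ, ih]
    simp only [up]
    conv_rhs => rw [← mod_cnt T (num T (m + 1) w + 1) m]
    congr 1
    rw [Nat.add_mod (num T (m + 1) w), num_mod T (Nat.le_succ m), Nat.add_mod_mod]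

theorem num_down (m : ℕ) (w : Dig T) :
    num T m (down T w) = (num T m w + (cnt T m - 1)) % cnt T m := by
  induction m with
  | zero => simp [num, cnt_zero]
  | succ m ih =>
    rw [num_succ, ih]
    simp only [down]
    conv_rhs => rw [← mod_cnt T (num T (m + 1) w + (cnt T (m + 1) - 1)) m]
    congr 1
    obtain ⟨r, hr⟩ := cnt_dvd T (Nat.le_succ m)
    have hr0 : 0 < r := by
      rcases Nat.eq_zero_or_pos r with h | h
      · have := cnt_pos T (m + 1); rw [hr, h, mul_zero] at this; omega
      · exact h
    obtain ⟨r', rfl⟩ := Nat.exists_eq_succ_of_ne_zero hr0.ne'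
    have e : cnt T (m + 1) - 1 = (cnt T m - 1) + cnt T m * r' := by
      have := cnt_pos T m
      simp only [Nat.succ_eq_add_one] at hr
      rw [hr, Nat.mul_succ]
      omega
    rw [e, ← add_assoc, Nat.add_mul_mod_self_left, Nat.add_mod (num T (m + 1) w),
      num_mod T (Nat.le_succ m), Nat.add_mod_mod]

theorem down_up (w : Dig T) : down T (up T w) = w := by
  refine ext_num T fun m => ?_
  have := cnt_pos T m
  rw [num_down, num_up, Nat.mod_add_mod,
    show num T m w + 1 + (cnt T m - 1) = num T m w + cnt T m by omega, Nat.add_mod_right,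
    Nat.mod_eq_of_lt (num_lt T m w)]

theorem up_down (w : Dig T) : up T (down T w) = w := by
  refine ext_num T fun m => ?_
  have := cnt_pos T m
  rw [num_up, num_down, Nat.mod_add_mod,
    show num T m w + (cnt T m - 1) + 1 = num T m w + cnt T m by omega, Nat.add_mod_right,
    Nat.mod_eq_of_lt (num_lt T m w)]

theorem measurable_num (m : ℕ) : Measurable (num T m) := by
  unfold num
  refine Finset.measurable_sum _ fun i _ => ?_
  exact (measurable_of_countable fun v : Fin (T.p i) => v.val * cnt T i).comp (measurable_pi_apply i)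

theorem measurable_num_pre (m : ℕ) (A : Set ℕ) : MeasurableSet (num T m ⁻¹' A) :=
  measurable_num T m A.to_countable.measurableSet

theorem measurable_up : Measurable (up T) := by
  refine measurable_pi_lambda _ fun i => ?_
  exact (measurable_of_countable fun q : ℕ => (⟨(q + 1) % cnt T (i + 1) / cnt T i,
    Nat.div_lt_of_lt_mul (lt_of_lt_of_le (Nat.mod_lt _ (cnt_pos T _)) (cnt_succ T i).le)⟩ :
      Fin (T.p i))).comp (measurable_num T (i + 1))

theorem measurable_down : Measurable (down T) := by
  refine measurable_pi_lambda _ fun i => ?_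
  exact (measurable_of_countable fun q : ℕ => (⟨(q + (cnt T (i + 1) - 1)) % cnt T (i + 1) / cnt T i,
    Nat.div_lt_of_lt_mul (lt_of_lt_of_le (Nat.mod_lt _ (cnt_pos T _)) (cnt_succ T i).le)⟩ :
      Fin (T.p i))).comp (measurable_num T (i + 1))

/-- The uniform measure on the digit sequences. -/
def base : Measure (Dig T) :=
  Measure.infinitePi fun i => (PMF.uniformOfFintype (Fin (T.p i))).toMeasure

instance : IsProbabilityMeasure (base T) := by unfold base; infer_instance

theorem base_num (m q : ℕ) (hq : q < cnt T m) :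
    base T (num T m ⁻¹' {q}) = (cnt T m : ℝ≥0∞)⁻¹ := by
  have hdig : ∀ i, q % cnt T (i + 1) / cnt T i < T.p i := fun i =>
    Nat.div_lt_of_lt_mul (lt_of_lt_of_le (Nat.mod_lt _ (cnt_pos T _)) (cnt_succ T i).le)
  have h : num T m ⁻¹' {q} =
      Set.pi (range m : Set ℕ) (fun i => ({⟨q % cnt T (i + 1) / cnt T i, hdig i⟩} : Set (Fin (T.p i)))) := by
    ext w
    simp only [Set.mem_preimage, Set.mem_singleton_iff, Set.mem_pi, Finset.mem_coe, mem_range]
    constructor
    · rintro rfl i hi
      apply Fin.ext
      simp only [num_mod T (show i + 1 ≤ m by omega), digit_eq]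
    · intro hw
      have key : ∀ l ≤ m, num T l w = q % cnt T l := by
        intro l
        induction l with
        | zero => intro _; simp [num, cnt_zero, Nat.mod_one]
        | succ l ih =>
          intro hl
          rw [num_succ, ih (by omega), hw l (by omega)]
          exact mod_cnt T q l
      rw [key m le_rfl, Nat.mod_eq_of_lt hq]
  rw [h, base, Measure.infinitePi_pi _ (fun i _ => measurableSet_singleton _)]
  simp only [PMF.toMeasure_apply_singleton _ _ (measurableSet_singleton _),
    PMF.uniformOfFintype_apply, Fintype.card_fin]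
  rw [cnt, Nat.cast_prod, ENNReal.prod_inv_distrib]
  exact fun i _ j _ _ => Or.inr (ENNReal.natCast_ne_top _)

theorem map_num (m : ℕ) :
    (base T).map (num T m) = ∑ q ∈ range (cnt T m), (cnt T m : ℝ≥0∞)⁻¹ • Measure.dirac q := by
  refine Measure.ext_of_singleton fun j => ?_
  rw [Measure.map_apply (measurable_num T m) (measurableSet_singleton j), Measure.finsetSum_apply]
  simp only [Measure.smul_apply, Measure.dirac_apply' _ (measurableSet_singleton j), smul_eq_mul]
  rcases lt_or_ge j (cnt T m) with hj | hj
  · rw [base_num T m j hj, sum_eq_single j]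
    · simp
    · intro b _ hb
      simp [hb]
    · simp [hj]
  · rw [show num T m ⁻¹' {j} = ∅ by
      ext x; simp; have := num_lt T m x; omega]
    rw [measure_empty, sum_eq_zero]
    intro b hb
    have : b < cnt T m := mem_range.1 hb
    simp [show b ≠ j by omega]

theorem map_up : (base T).map (up T) = base T := by
  refine Measure.eq_infinitePi _ fun s t ht => ?_
  rw [← Measure.infinitePi_pi _ (fun i _ => ht i), ← base,
    Measure.map_apply (measurable_up T) (MeasurableSet.pi s.countable_toSet fun i _ => ht i)]
  set m := s.sup id + 1 with hm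
  set A : Set ℕ := {q | ∀ i ∈ s, ∃ v ∈ t i, v.val = q % cnt T (i + 1) / cnt T i} with hA
  have hset : Set.pi (s : Set ℕ) t = num T m ⁻¹' A := by
    ext w
    simp only [Set.mem_pi, Finset.mem_coe, Set.mem_preimage, hA, Set.mem_ofPred_eq]
    refine forall₂_congr fun i hi => ?_
    rw [num_mod T (show i + 1 ≤ m by have : i ≤ s.sup id := Finset.le_sup (f := id) hi; omega),
      digit_eq]
    exact ⟨fun h => ⟨_, h, rfl⟩, fun ⟨v, hv, he⟩ => (Fin.ext he : v = w i) ▸ hv⟩
  have hmap : ((base T).map (up T)).map (num T m) = (base T).map (num T m) := by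
    rw [Measure.map_map (measurable_num T m) (measurable_up T),
      show num T m ∘ up T = (fun q => (q + 1) % cnt T m) ∘ num T m from funext fun x => num_up T m x,
      ← Measure.map_map (measurable_of_countable _) (measurable_num T m), map_num,
      Measure.map_finset_sum (measurable_of_countable _).aemeasurable]
    simp only [Measure.map_smul, Measure.map_dirac]
    have hperm := Finset.sum_nbij' (s := range (cnt T m)) (t := range (cnt T m))
      (f := fun q => (cnt T m : ℝ≥0∞)⁻¹ • Measure.dirac ((q + 1) % cnt T m))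
      (g := fun q => (cnt T m : ℝ≥0∞)⁻¹ • Measure.dirac q)
      (fun q => (q + 1) % cnt T m) (fun q => (q + (cnt T m - 1)) % cnt T m)
      (fun q _ => by simp [Nat.mod_lt _ (cnt_pos T m)])
      (fun q _ => by simp [Nat.mod_lt _ (cnt_pos T m)])
      (fun q hq => by
        have hq := mem_range.1 hq
        rw [Nat.mod_add_mod, show q + 1 + (cnt T m - 1) = q + cnt T m by omega, Nat.add_mod_right,
          Nat.mod_eq_of_lt hq])
      (fun q hq => by
        have hq := mem_range.1 hq
        rw [Nat.mod_add_mod, show q + (cnt T m - 1) + 1 = q + cnt T m by omega, Nat.add_mod_right,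
          Nat.mod_eq_of_lt hq])
      (fun q _ => rfl)
    exact hperm
  have hAm : MeasurableSet A := A.to_countable.measurableSet
  rw [hset, ← Measure.map_apply (measurable_up T) (measurable_num T m hAm),
    ← Measure.map_apply (measurable_num T m) hAm, hmap, Measure.map_apply (measurable_num T m) hAm]

/-- The position of the copy `q` in the column `m`. -/
def place : ℕ → ℕ → ℕ
  | 0, _ => 0
  | m + 1, q => place m (q % cnt T m) + T.n m (q / cnt T m)

theorem place_zero_right (m : ℕ) : place T m 0 = 0 := by
  induction m with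
  | zero => rfl
  | succ m ih => simp [place, ih, T.n_zero]

theorem place_cell {k j : ℕ} : place T (k + 1) (j * cnt T k) = T.n k j := by
  simp [place, Nat.mul_div_cancel _ (cnt_pos T k), place_zero_right]

theorem n_le {k j : ℕ} (hj : j < T.p k) : T.n k j + T.h k ≤ T.h (k + 1) := by
  have key : ∀ i, j + i < T.p k → T.n k j ≤ T.n k (j + i) := by
    intro i
    induction i with
    | zero => intro _; exact le_rfl
    | succ i ih =>
      intro hi
      exact (ih (by omega)).trans (le_of_add_le_left (T.n_step k (j + i) hi))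
  have := key (T.p k - 1 - j) (by omega)
  rw [show j + (T.p k - 1 - j) = T.p k - 1 by omega] at this
  have := T.n_top k
  omega

theorem place_gap (k : ℕ) : ∀ m, k ≤ m → ∀ q < cnt T m, q % cnt T k = 0 →
    place T m q + T.h k ≤ T.h m ∧
      (q + cnt T k < cnt T m → place T m q + T.h k ≤ place T m (q + cnt T k)) := by
  intro m hm
  induction m, hm using Nat.le_induction with
  | base =>
    intro q hq h0
    rw [Nat.mod_eq_of_lt hq] at h0
    subst h0
    simp [place_zero_right]
  | succ m hm ih =>
    intro q hq h0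
    have hPm := cnt_pos T m
    have hr := Nat.mod_lt q hPm
    have hj : q / cnt T m < T.p m := Nat.div_lt_of_lt_mul (cnt_succ T m ▸ hq)
    have hmod : q % cnt T m % cnt T k = 0 := by rwa [Nat.mod_mod_of_dvd _ (cnt_dvd T hm)]
    obtain ⟨h1, h2⟩ := ih _ hr hmod
    have hnle := n_le T hj
    refine ⟨by simp only [place]; omega, fun hlt => ?_⟩
    have hdm : q % cnt T m + cnt T m * (q / cnt T m) = q := Nat.mod_add_div q _
    obtain ⟨c, hc⟩ := cnt_dvd T hm
    have hle : q % cnt T m + cnt T k ≤ cnt T m := by
      obtain ⟨e, he⟩ := Nat.dvd_of_mod_eq_zero hmod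
      rw [he] at hr ⊢
      rw [hc] at hr ⊢
      have : e < c := Nat.lt_of_mul_lt_mul_left hr
      rw [← Nat.mul_succ]
      exact Nat.mul_le_mul_left _ this
    simp only [place]
    rcases lt_or_eq_of_le hle with hl | hl
    · have e : q + cnt T k = q % cnt T m + cnt T k + cnt T m * (q / cnt T m) := by omega
      rw [e, Nat.add_mul_mod_self_left, Nat.mod_eq_of_lt hl, Nat.add_mul_div_left _ _ hPm,
        Nat.div_eq_of_lt hl, zero_add]
      have := h2 hl
      omega
    · have e : q + cnt T k = cnt T m * (q / cnt T m + 1) := by rw [Nat.mul_succ]; omega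
      have hj1 : q / cnt T m + 1 < T.p m := by
        refine Nat.lt_of_mul_lt_mul_left (a := cnt T m) ?_
        rw [← e, ← cnt_succ]
        exact hlt
      rw [e, Nat.mul_mod_right, Nat.mul_div_cancel_left _ hPm, place_zero_right, zero_add]
      have := T.n_step m _ hj1
      omega

theorem place_lt_succ {m q : ℕ} (h : q + 1 < cnt T m) : place T m q < place T m (q + 1) := by
  have := (place_gap T 0 m (Nat.zero_le m) q (by omega) (by simp [cnt_zero, Nat.mod_one])).2
    (by rwa [cnt_zero])
  rw [cnt_zero, T.h_zero] at this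
  omega

theorem place_lt (m : ℕ) {q : ℕ} (hq : q < cnt T m) : place T m q < T.h m := by
  have := (place_gap T 0 m (Nat.zero_le m) q hq (by simp [cnt_zero, Nat.mod_one])).1
  rw [T.h_zero] at this
  omega

theorem place_lift {l m : ℕ} (hlm : l ≤ m) {w : Dig T} (h : num T l w + 1 < cnt T l) :
    num T m w + 1 < cnt T m ∧ place T m (num T m w + 1) + place T l (num T l w) =
      place T m (num T m w) + place T l (num T l w + 1) := by
  induction m, hlm using Nat.le_induction with
  | base => exact ⟨h, add_comm _ _⟩
  | succ m hm ih =>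
    obtain ⟨h1, h2⟩ := ih
    have hlt := num_lt T (m + 1) w
    have hmod := num_mod T (Nat.le_succ m) w
    have hdm : num T (m + 1) w % cnt T m + cnt T m * (num T (m + 1) w / cnt T m) = num T (m + 1) w :=
      Nat.mod_add_div _ _
    rw [hmod] at hdm
    have e : num T (m + 1) w + 1 = num T m w + 1 + cnt T m * (num T (m + 1) w / cnt T m) := by omega
    refine ⟨?_, ?_⟩
    · have hd : num T (m + 1) w / cnt T m + 1 ≤ T.p m := Nat.div_lt_of_lt_mul (cnt_succ T m ▸ hlt)
      have h3 := Nat.mul_le_mul_left (cnt T m) hd
      rw [← cnt_succ, Nat.mul_succ] at h3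
      omega
    · simp only [place, hmod]
      rw [e, Nat.add_mul_mod_self_left, Nat.mod_eq_of_lt h1, Nat.add_mul_div_left _ _ (cnt_pos T m),
        Nat.div_eq_of_lt h1, zero_add]
      omega

end Stack

end

end Vale.Agent.P130.Flat
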