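import Vale.Agent.P130.Flat.Stage.Limit

/-!
P130, M8: the positions of the copies of one column inside a later one, and the Riesz product they define.
-/

namespace Vale.Agent.P130.Flat.Rank

open MeasureTheory Finset
open scoped ComplexConjugate

noncomputable section

variable (T : Tower)

/-- The number of copies. -/
def cnt (k l : ℕ) : ℕ := ∏ i ∈ Ico k l, T.p i

theorem cnt_pos (k l : ℕ) : 0 < cnt T k l :=
  Finset.prod_pos fun i _ => by have := T.p_two i; omega

theorem cnt_succ {k l : ℕ} (h : k ≤ l) : cnt T k (l + 1) = cnt T k l * T.p l :=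
  Finset.prod_Ico_succ_top h _

theorem two_pow_le_cnt {k l : ℕ} (_h : k ≤ l) : 2 ^ (l - k) ≤ cnt T k l := by
  refine le_trans (le_of_eq ?_) (Finset.pow_card_le_prod _ _ _ fun i _ => T.p_two i)
  rw [Nat.card_Ico]

/-- The positions of the copies of the column `k` in the column `k + j`. -/
def posJ (k : ℕ) : ℕ → Finset ℕ
  | 0 => {0}
  | j + 1 => (posJ k j ×ˢ range (T.p (k + j))).image fun q => q.1 + T.n (k + j) q.2

/-- The positions of the copies of the column `k` in the column `l`. -/
def posSet (k l : ℕ) : Finset ℕ := posJ T k (l - k)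

theorem posSet_self (k : ℕ) : posSet T k k = {0} := by simp [posSet, posJ]

theorem posSet_succ {k l : ℕ} (h : k ≤ l) :
    posSet T k (l + 1) = (posSet T k l ×ˢ range (T.p l)).image fun q => q.1 + T.n l q.2 := by
  rw [posSet, posSet, show l + 1 - k = (l - k) + 1 by omega, posJ, Nat.add_sub_cancel' h]

theorem pos_add_le {k l : ℕ} (h : k ≤ l) : ∀ v ∈ posSet T k l, v + T.h k ≤ T.h l := by
  induction l, h using Nat.le_induction with
  | base => simp [posSet_self]
  | succ l hl ih =>
    intro v hv
    rw [posSet_succ T hl, mem_image] at hv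
    obtain ⟨⟨u, j⟩, hq, rfl⟩ := hv
    simp only [mem_product, mem_range] at hq
    have := ih u hq.1
    have := Stage.n_le T hq.2
    dsimp only
    omega

theorem pos_lt {k l : ℕ} (h : k ≤ l) {v : ℕ} (hv : v ∈ posSet T k l) : v < T.h l := by
  have := pos_add_le T h v hv
  have := Stage.h_pos T k
  omega

theorem n_mono {k i j : ℕ} (hij : i < j) (hj : j < T.p k) : T.n k i + T.h k ≤ T.n k j := by
  induction j, hij using Nat.le_induction with
  | base => exact T.n_step k i hj
  | succ j hij ih =>
    have := ih (by omega)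
    have := T.n_step k j hj
    omega

theorem pos_inj {k l : ℕ} (h : k ≤ l) :
    Set.InjOn (fun q : ℕ × ℕ => q.1 + T.n l q.2) ↑(posSet T k l ×ˢ range (T.p l)) := by
  rintro ⟨u, i⟩ hu ⟨v, j⟩ hv e
  simp only [Finset.mem_coe, mem_product, mem_range] at hu hv
  have h1 := pos_lt T h hu.1
  have h2 := pos_lt T h hv.1
  dsimp only at e
  rcases lt_trichotomy i j with hij | rfl | hij
  · have := n_mono T hij hv.2; omega
  · simp only [Nat.add_right_cancel e]
  · have := n_mono T hij hu.2; omega

theorem card_posSet {k l : ℕ} (h : k ≤ l) : (posSet T k l).card = cnt T k l := by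
  induction l, h using Nat.le_induction with
  | base => simp [posSet_self, cnt]
  | succ l hl ih =>
    rw [posSet_succ T hl, card_image_of_injOn (pos_inj T hl), card_product, ih, card_range, cnt_succ T hl]

/-- The polynomial of the positions. -/
def bigP (k l : ℕ) (θ : ℝ) : ℂ := ∑ v ∈ posSet T k l, ex ((v : ℝ) * θ)

theorem bigP_succ {k l : ℕ} (h : k ≤ l) (θ : ℝ) : bigP T k (l + 1) θ = bigP T k l θ * T.P l θ := by
  rw [bigP, posSet_succ T h, sum_image (pos_inj T h), sum_product, bigP, Tower.P, sum_mul_sum]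
  refine sum_congr rfl fun u _ => sum_congr rfl fun j _ => ?_
  rw [← Stage.ex_add]
  push_cast
  ring_nf

theorem R_eq {k l : ℕ} (h : k ≤ l) (θ : ℝ) : T.R k l θ = ‖bigP T k l θ‖ ^ 2 / cnt T k l := by
  induction l, h using Nat.le_induction with
  | base => simp [Stage.R_self, bigP, posSet_self, cnt, Stage.ex_zero]
  | succ l hl ih =>
    rw [Stage.R_succ T hl, ih, bigP_succ T hl, cnt_succ T hl, norm_mul, mul_pow, Nat.cast_mul]
    field_simp

theorem integral_R {k l : ℕ} (h : k ≤ l) (a : ℤ) :
    ∫ θ, ex ((a : ℝ) * θ) * (T.R k l θ : ℂ) ∂leb =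
      ((cnt T k l : ℂ))⁻¹ * ∑ u ∈ posSet T k l, ∑ v ∈ posSet T k l,
        if a + u - v = 0 then (1 : ℂ) else 0 := by
  have he : ∀ θ, ex ((a : ℝ) * θ) * (T.R k l θ : ℂ) = ((cnt T k l : ℂ))⁻¹ *
      ∑ u ∈ posSet T k l, ∑ v ∈ posSet T k l, ex (((a + u - v : ℤ) : ℝ) * θ) := by
    intro θ
    rw [R_eq T h, Complex.ofReal_div, Complex.ofReal_pow, ← Complex.mul_conj', bigP, map_sum, sum_mul_sum,
      Complex.ofReal_natCast, div_eq_inv_mul, mul_left_comm, mul_sum]
    refine congrArg _ (sum_congr rfl fun u _ => ?_)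
    rw [mul_sum]
    refine sum_congr rfl fun v _ => ?_
    rw [Stage.conj_ex, ← Stage.ex_add, ← Stage.ex_add]
    push_cast
    ring_nf
  have hc : ∀ n : ℤ, Continuous fun θ : ℝ => ex ((n : ℝ) * θ) := fun n =>
    Stage.continuous_ex.comp (continuous_const.mul continuous_id)
  simp only [he]
  rw [integral_const_mul, integral_finsetSum _ fun u _ =>
    Stage.integrable_cont (continuous_finsetSum _ fun v _ => hc _)]
  refine congrArg _ (sum_congr rfl fun u _ => ?_)
  rw [integral_finsetSum _ fun v _ => Stage.integrable_cont (hc _)]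
  exact sum_congr rfl fun v _ => Stage.integral_ex _

theorem card_far {k l : ℕ} (h : k ≤ l) (a : ℤ) :
    ((posSet T k l ×ˢ posSet T k l).filter fun q => ¬ |a + q.1 - q.2| < (T.h l : ℤ)).card ≤
      2 * a.natAbs ^ 2 := by
  refine le_trans (card_le_card (t := (Finset.Ico (T.h l - a.natAbs) (T.h l) ×ˢ range a.natAbs) ∪
    (range a.natAbs ×ˢ Finset.Ico (T.h l - a.natAbs) (T.h l))) ?_) ?_
  · rintro ⟨u, v⟩ hq
    simp only [mem_filter, mem_product] at hq
    have hu := pos_lt T h hq.1.1
    have hv := pos_lt T h hq.1.2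
    have hh := hq.2
    rw [abs_lt] at hh
    simp only [mem_union, mem_product, mem_range, Finset.mem_Ico]
    omega
  · refine (card_union_le _ _).trans ?_
    simp only [card_product, card_range, Nat.card_Ico]
    have : T.h l - (T.h l - a.natAbs) ≤ a.natAbs := by omega
    nlinarith

end

end Vale.Agent.P130.Flat.Rank
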