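import Vale.Agent.P130.Flat.Rank.Odometer

/-!
P130, M8: cutting and stacking along a tower, as a roof function over the odometer.
-/

namespace Vale.Agent.P130.Flat

open MeasureTheory Finset Filter
open scoped ENNReal Topology

noncomputable section

namespace Stack

variable (T : Tower)

open Classical in
/-- The height over a point of the odometer. -/
def roof (w : Dig T) : ℕ :=
  if h : ∃ m, num T m w + 1 < cnt T m then
    place T (Nat.find h) (num T (Nat.find h) w + 1) - place T (Nat.find h) (num T (Nat.find h) w)
  else 1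

theorem roof_eq {m : ℕ} {w : Dig T} (h : num T m w + 1 < cnt T m) :
    roof T w + place T m (num T m w) = place T m (num T m w + 1) := by
  classical
  have hex : ∃ m, num T m w + 1 < cnt T m := ⟨m, h⟩
  have hle : Nat.find hex ≤ m := Nat.find_le h
  have hspec : num T (Nat.find hex) w + 1 < cnt T (Nat.find hex) := Nat.find_spec hex
  have h1 := (place_lift T hle hspec).2
  have h2 := place_lt_succ T hspec
  rw [roof, dif_pos hex]
  omega

theorem roof_pos (w : Dig T) : 0 < roof T w := by
  classical
  rw [roof]
  split_ifs with h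
  · have := place_lt_succ T (Nat.find_spec h); omega
  · exact one_pos

theorem measurableSet_roof (t : ℕ) : MeasurableSet {w | roof T w = t} := by
  classical
  have h : {w | roof T w = t} =
      (⋃ m, num T m ⁻¹' {q | q + 1 < cnt T m ∧ t + place T m q = place T m (q + 1)}) ∪
        (if t = 1 then (⋃ m, num T m ⁻¹' {q | q + 1 < cnt T m})ᶜ else ∅) := by
    ext w
    by_cases hex : ∃ m, num T m w + 1 < cnt T m
    · obtain ⟨m, hm⟩ := hex
      have hr := roof_eq T hm
      constructor
      · intro hw
        simp only [Set.mem_ofPred_eq] at hw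
        exact Or.inl (Set.mem_iUnion.2 ⟨m, hm, by omega⟩)
      · rintro (hw | hw)
        · obtain ⟨l, hl, he⟩ := Set.mem_iUnion.1 hw
          have := roof_eq T hl
          simp only [Set.mem_ofPred_eq]
          omega
        · split_ifs at hw with ht
          · exact absurd (Set.mem_iUnion.2 ⟨m, hm⟩) hw
          · exact hw.elim
    · have hr : roof T w = 1 := by rw [roof, dif_neg hex]
      simp only [Set.mem_ofPred_eq, hr, Set.mem_union, Set.mem_iUnion, Set.mem_preimage]
      constructor
      · rintro rfl
        rw [if_pos rfl]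
        exact Or.inr fun hc => hex (by simpa using hc)
      · rintro (⟨l, hl, -⟩ | hw)
        · exact absurd ⟨l, hl⟩ hex
        · split_ifs at hw with ht
          · exact ht.symm
          · exact hw.elim
  rw [h]
  refine (MeasurableSet.iUnion fun m => measurable_num_pre T m _).union ?_
  split_ifs
  · exact (MeasurableSet.iUnion fun m => measurable_num_pre T m _).compl
  · exact MeasurableSet.empty

theorem measurable_roof : Measurable (roof T) :=
  measurable_to_countable' fun t => measurableSet_roof T t

/-- The space of the columns. -/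
abbrev Space : Type := Dig T × ℕ

/-- One step up. -/
def fwd (x : Space T) : Space T :=
  if x.2 + 1 < roof T x.1 then (x.1, x.2 + 1) else if x.2 + 1 = roof T x.1 then (up T x.1, 0) else x

/-- One step down. -/
def bwd (x : Space T) : Space T :=
  if roof T x.1 ≤ x.2 then x else if x.2 = 0 then (down T x.1, roof T (down T x.1) - 1) else (x.1, x.2 - 1)

theorem bwd_fwd (x : Space T) : bwd T (fwd T x) = x := by
  obtain ⟨w, i⟩ := x
  have hw := roof_pos T w
  have hu := roof_pos T (up T w)
  simp only [fwd]
  split_ifs with h1 h2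
  · simp only [bwd, if_neg (show ¬ roof T w ≤ i + 1 by omega), if_neg (show ¬ i + 1 = 0 by omega)]
    simp
  · simp only [bwd, if_neg (show ¬ roof T (up T w) ≤ 0 by omega), if_true, down_up]
    congr 1
    omega
  · simp only [bwd, if_pos (show roof T w ≤ i by omega)]

theorem fwd_bwd (x : Space T) : fwd T (bwd T x) = x := by
  obtain ⟨w, i⟩ := x
  have hw := roof_pos T w
  have hd := roof_pos T (down T w)
  simp only [bwd]
  split_ifs with h1 h2
  · simp only [fwd, if_neg (show ¬ i + 1 < roof T w by omega),
      if_neg (show ¬ i + 1 = roof T w by omega)]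
  · simp only [fwd, if_neg (show ¬ roof T (down T w) - 1 + 1 < roof T (down T w) by omega),
      if_pos (show roof T (down T w) - 1 + 1 = roof T (down T w) by omega), up_down, h2]
  · simp only [fwd, if_pos (show i - 1 + 1 < roof T w by omega)]
    congr 1
    omega

theorem measurable_fwd : Measurable (fwd T) := by
  have h1 : Measurable fun x : Space T => roof T x.1 := (measurable_roof T).comp measurable_fst
  have h2 : Measurable fun x : Space T => x.2 + 1 := measurable_snd.add_const 1
  exact Measurable.ite (measurableSet_lt h2 h1) (measurable_fst.prodMk h2)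
    (Measurable.ite (measurableSet_eq_fun h2 h1)
      (((measurable_up T).comp measurable_fst).prodMk measurable_const) measurable_id)

theorem measurable_bwd : Measurable (bwd T) := by
  have h1 : Measurable fun x : Space T => roof T x.1 := (measurable_roof T).comp measurable_fst
  refine Measurable.ite (measurableSet_le h1 measurable_snd) measurable_id
    (Measurable.ite (measurable_snd (measurableSet_singleton 0)) ?_
      (measurable_fst.prodMk (measurable_snd.sub_const 1)))
  exact ((measurable_down T).comp measurable_fst).prodMk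
    (((measurable_roof T).comp ((measurable_down T).comp measurable_fst)).sub_const 1)

/-- The transformation. -/
def shift : Space T ≃ᵐ Space T where
  toFun := fwd T
  invFun := bwd T
  left_inv := bwd_fwd T
  right_inv := fwd_bwd T
  measurable_toFun := measurable_fwd T
  measurable_invFun := measurable_bwd T

/-- The levels over `w` have mass one each. -/
def pre : Measure (Space T) :=
  Measure.sum fun i => ((base T).restrict {w | i < roof T w}).map fun w => (w, i)

theorem measurableSet_floor (i : ℕ) : MeasurableSet {w | i < roof T w} :=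
  measurableSet_lt measurable_const (measurable_roof T)

theorem pre_apply {E : Set (Space T)} (hE : MeasurableSet E) :
    pre T E = ∑' i, base T {w | i < roof T w ∧ (w, i) ∈ E} := by
  rw [pre, Measure.sum_apply _ hE]
  refine tsum_congr fun i => ?_
  rw [Measure.map_apply measurable_prodMk_right hE,
    Measure.restrict_apply (measurable_prodMk_right hE)]
  congr 1
  ext w
  simp [and_comm]

theorem pre_shift {E : Set (Space T)} (hE : MeasurableSet E) : pre T (fwd T ⁻¹' E) = pre T E := by
  rw [pre_apply T (measurable_fwd T hE), pre_apply T hE]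
  set a : ℕ → ℝ≥0∞ := fun i => base T {w | i < roof T w ∧ (w, i) ∈ E} with ha
  have hA : ∀ i, MeasurableSet {w | i + 1 = roof T w ∧ (up T w, 0) ∈ E} := fun i =>
    (measurableSet_eq_fun measurable_const (measurable_roof T)).inter
      (((measurable_up T).prodMk measurable_const) hE)
  have hsplit : ∀ i, base T {w | i < roof T w ∧ (w, i) ∈ fwd T ⁻¹' E} =
      a (i + 1) + base T {w | i + 1 = roof T w ∧ (up T w, 0) ∈ E} := by
    intro i
    rw [ha, ← measure_union ?_ (hA i)]
    · congr 1
      ext w
      simp only [Set.mem_ofPred_eq, Set.mem_preimage, Set.mem_union, fwd]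
      rcases lt_trichotomy (i + 1) (roof T w) with h | h | h
      · rw [if_pos h]
        simp [h, h.ne, show i < roof T w by omega]
      · rw [if_neg (show ¬ i + 1 < roof T w by omega), if_pos h]
        simp [h, show i < roof T w by omega]
      · simp [show ¬ i < roof T w by omega, show ¬ i + 1 < roof T w by omega,
          show i + 1 ≠ roof T w by omega]
    · refine Set.disjoint_left.2 fun w hw hw' => ?_
      simp only [Set.mem_ofPred_eq] at hw hw'
      omega
  have htop : ∑' i, base T {w | i + 1 = roof T w ∧ (up T w, 0) ∈ E} = a 0 := by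
    rw [← measure_iUnion ?_ hA]
    · have h : (⋃ i, {w | i + 1 = roof T w ∧ (up T w, 0) ∈ E}) = up T ⁻¹' {v | (v, 0) ∈ E} := by
        ext w
        simp only [Set.mem_iUnion, Set.mem_ofPred_eq, Set.mem_preimage]
        exact ⟨fun ⟨i, _, h⟩ => h,
          fun h => ⟨roof T w - 1, by have := roof_pos T w; omega, h⟩⟩
      rw [h, ← Measure.map_apply (measurable_up T)
        (show MeasurableSet {v : Dig T | (v, 0) ∈ E} from measurable_prodMk_right hE), map_up, ha]
      congr 1
      ext w
      simp [roof_pos T w]
    · intro i j hij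
      refine Set.disjoint_left.2 fun w hw hw' => hij ?_
      simp only [Set.mem_ofPred_eq] at hw hw'
      omega
  rw [tsum_congr hsplit, ENNReal.tsum_add, htop, add_comm]
  exact (tsum_eq_zero_add' ENNReal.summable).symm

theorem exc_measure (m : ℕ) :
    base T {w | ¬ num T m w + 1 < cnt T m} = (cnt T m : ℝ≥0∞)⁻¹ := by
  have : {w : Dig T | ¬ num T m w + 1 < cnt T m} = num T m ⁻¹' {cnt T m - 1} := by
    ext w
    simp only [Set.mem_ofPred_eq, Set.mem_preimage, Set.mem_singleton_iff]
    have := num_lt T m w
    omega
  rw [this, base_num T m _ (by have := cnt_pos T m; omega)]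

theorem card_level (M m q : ℕ) (hq : q + 1 < cnt T m) :
    ∑ i ∈ range M, (if i + place T m q < place T m (q + 1) then (1 : ℝ) else 0) ≤
      (place T m (q + 1) : ℝ) - place T m q := by
  have hsub : (range M).filter (fun i => i + place T m q < place T m (q + 1)) ⊆
      range (place T m (q + 1) - place T m q) := by
    intro i hi
    simp only [Finset.mem_filter, mem_range] at hi ⊢
    omega
  have h := Finset.card_le_card hsub
  rw [card_range] at h
  rw [Finset.sum_boole, ← Nat.cast_sub (place_lt_succ T hq).le]
  exact_mod_cast h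

theorem total_partial (C : ℝ) (hC : ∀ k, (T.h k : ℝ) ≤ C * ∏ i ∈ range k, (T.p i : ℝ)) (M : ℕ) :
    ∑ i ∈ range M, (base T {w | i < roof T w}).toReal ≤ C := by
  refine le_of_forall_pos_le_add fun e he => ?_
  obtain ⟨m, hm⟩ := exists_nat_gt ((M : ℝ) / e)
  have hP : (m : ℝ) < cnt T m := by
    exact_mod_cast lt_of_lt_of_le m.lt_two_pow_self (two_pow_le_cnt T m)
  have hP0 : (0 : ℝ) < cnt T m := by exact_mod_cast cnt_pos T m
  have hsmall : (M : ℝ) / cnt T m ≤ e := by
    rw [div_le_iff₀ hP0]
    rw [div_lt_iff₀ he] at hm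
    nlinarith
  have hbound : ∀ i, (base T {w | i < roof T w}).toReal ≤
      (∑ q ∈ range (cnt T m), (if q + 1 < cnt T m then
        (if i + place T m q < place T m (q + 1) then (1 : ℝ) else 0) else 1)) / cnt T m := by
    intro i
    set A := (range (cnt T m)).filter fun q =>
      ¬ q + 1 < cnt T m ∨ i + place T m q < place T m (q + 1) with hA
    have hsub : {w | i < roof T w} ⊆ ⋃ q ∈ A, num T m ⁻¹' {q} := by
      intro w hw
      simp only [Set.mem_iUnion, Set.mem_preimage, Set.mem_singleton_iff]
      refine ⟨num T m w, Finset.mem_filter.2 ⟨mem_range.2 (num_lt T m w), ?_⟩, rfl⟩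
      by_cases h : num T m w + 1 < cnt T m
      · right
        have := roof_eq T h
        simp only [Set.mem_ofPred_eq] at hw
        omega
      · exact Or.inl h
    have h1 : base T {w | i < roof T w} ≤ ∑ q ∈ A, (cnt T m : ℝ≥0∞)⁻¹ :=
      (measure_mono hsub).trans ((measure_biUnion_finset_le _ _).trans (Finset.sum_le_sum fun q hq =>
        (base_num T m q (mem_range.1 (Finset.mem_filter.1 hq).1)).le))
    rw [Finset.sum_const, nsmul_eq_mul] at h1
    have h2 := ENNReal.toReal_mono (ENNReal.mul_ne_top (ENNReal.natCast_ne_top _)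
      (ENNReal.inv_ne_top.2 (by exact_mod_cast (cnt_pos T m).ne'))) h1
    rw [ENNReal.toReal_mul, ENNReal.toReal_inv, ENNReal.toReal_natCast, ENNReal.toReal_natCast,
      ← div_eq_mul_inv] at h2
    refine h2.trans (le_of_eq ?_)
    congr 1
    rw [hA, ← Finset.sum_boole]
    refine Finset.sum_congr rfl fun q _ => ?_
    by_cases h : q + 1 < cnt T m <;> simp [h]
  refine (Finset.sum_le_sum fun i _ => hbound i).trans ?_
  rw [← Finset.sum_div, Finset.sum_comm]
  obtain ⟨N, hN⟩ : ∃ N, cnt T m = N + 1 := ⟨cnt T m - 1, by have := cnt_pos T m; omega⟩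
  have hbody : ∀ q ∈ range N, ∑ i ∈ range M, (if q + 1 < cnt T m then
      (if i + place T m q < place T m (q + 1) then (1 : ℝ) else 0) else 1) ≤
      (place T m (q + 1) : ℝ) - place T m q := by
    intro q hq
    have hq' : q + 1 < cnt T m := by have := mem_range.1 hq; omega
    simp only [if_pos hq']
    exact card_level T M m q hq'
  conv_lhs => enter [1, 1]; rw [hN]
  rw [Finset.sum_range_succ, div_le_iff₀ hP0]
  simp only [show ¬ N + 1 < cnt T m by omega, if_false, Finset.sum_const, card_range,
    nsmul_eq_mul, mul_one]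
  have htel := (Finset.sum_le_sum hbody).trans_eq
    (Finset.sum_range_sub (fun q => (place T m q : ℝ)) N)
  have hpl : (place T m N : ℝ) ≤ T.h m := by
    exact_mod_cast (place_lt T m (q := N) (by omega)).le
  have hCm := hC m
  rw [← Nat.cast_prod, ← cnt] at hCm
  rw [div_le_iff₀ hP0] at hsmall
  simp only [place_zero_right, Nat.cast_zero, sub_zero] at htel
  linarith

theorem pre_univ_ne_top : pre T Set.univ ≠ ∞ := by
  obtain ⟨C, hC⟩ := T.bounded
  rw [pre_apply T MeasurableSet.univ]
  simp only [Set.mem_univ, and_true]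
  refine ne_top_of_le_ne_top (ENNReal.ofReal_ne_top (r := C)) ?_
  rw [ENNReal.tsum_eq_iSup_nat]
  refine iSup_le fun M => ?_
  rw [← ENNReal.ofReal_toReal (ENNReal.sum_ne_top.2 fun i _ => measure_ne_top (base T) _)]
  refine ENNReal.ofReal_le_ofReal ?_
  rw [ENNReal.toReal_sum fun i _ => measure_ne_top (base T) _]
  exact total_partial T C hC M

theorem pre_univ_ne_zero : pre T Set.univ ≠ 0 := by
  rw [pre_apply T MeasurableSet.univ]
  refine fun h => ?_
  have h0 := (ENNReal.tsum_eq_zero.1 h) 0
  have : {w | 0 < roof T w ∧ ((w, 0) : Space T) ∈ Set.univ} = Set.univ := by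
    ext w; simp [roof_pos T w]
  rw [this, measure_univ] at h0
  exact one_ne_zero h0

/-- The probability measure. -/
def mu : Measure (Space T) := (pre T Set.univ)⁻¹ • pre T

instance : IsProbabilityMeasure (mu T) :=
  ⟨by rw [mu, Measure.smul_apply, smul_eq_mul,
    ENNReal.inv_mul_cancel (pre_univ_ne_zero T) (pre_univ_ne_top T)]⟩

/-- The base of the column `m`. -/
def bot (m : ℕ) : Set (Space T) := {x | num T m x.1 = 0 ∧ x.2 = 0}

theorem measurableSet_bot (m : ℕ) : MeasurableSet (bot T m) :=
  ((measurable_num_pre T m {0}).preimage measurable_fst).inter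
    (measurable_snd (measurableSet_singleton 0))

theorem perm_pow (a : ℕ) (x : Space T) :
    ((shift T).toEquiv ^ a : Equiv.Perm (Space T)) x = (fwd T)^[a] x := by
  rw [Equiv.Perm.coe_pow]; rfl

theorem mem_level (a : ℕ) (x : Space T) (A : Set (Space T)) :
    ((shift T).toEquiv ^ (-(a : ℤ)) : Equiv.Perm (Space T)) x ∈ A ↔
      ∃ y ∈ A, (fwd T)^[a] y = x := by
  rw [zpow_neg, zpow_natCast]
  constructor
  · intro h
    refine ⟨_, h, ?_⟩
    rw [← perm_pow]
    exact Equiv.apply_symm_apply _ _
  · rintro ⟨y, hy, rfl⟩
    rw [← perm_pow]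
    simpa only [Equiv.Perm.inv_def, Equiv.symm_apply_apply] using hy

theorem iterate_floor (w : Dig T) {i : ℕ} (hi : i < roof T w) : (fwd T)^[i] (w, 0) = (w, i) := by
  induction i with
  | zero => rfl
  | succ i ih =>
    rw [Function.iterate_succ_apply', ih (by omega)]
    simp only [fwd, if_pos hi]

theorem iterate_roof (w : Dig T) : (fwd T)^[roof T w] (w, 0) = (up T w, 0) := by
  obtain ⟨i, hi⟩ : ∃ i, roof T w = i + 1 := ⟨roof T w - 1, by have := roof_pos T w; omega⟩
  rw [hi, Function.iterate_succ_apply', iterate_floor T w (by omega)]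
  simp [fwd, hi]

theorem num_iter {m : ℕ} (w : Dig T) :
    ∀ r, num T m w + r < cnt T m → num T m ((up T)^[r] w) = num T m w + r := by
  intro r
  induction r with
  | zero => intro _; rfl
  | succ r ih =>
    intro h
    rw [Function.iterate_succ_apply', num_up, ih (by omega), Nat.mod_eq_of_lt (by omega)]
    rfl

theorem climb {m : ℕ} (w : Dig T) :
    ∀ r, num T m w + r < cnt T m →
      place T m (num T m w) ≤ place T m (num T m w + r) ∧
      (fwd T)^[place T m (num T m w + r) - place T m (num T m w)] (w, 0) = ((up T)^[r] w, 0) := by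
  intro r
  induction r with
  | zero => intro _; simp
  | succ r ih =>
    intro h
    obtain ⟨h1, h2⟩ := ih (by omega)
    have hn := num_iter T (m := m) w r (by omega)
    have hr := roof_eq T (m := m) (w := (up T)^[r] w) (by omega)
    rw [hn] at hr
    rw [← add_assoc (num T m w) r 1]
    refine ⟨by omega, ?_⟩
    rw [show place T m (num T m w + r + 1) - place T m (num T m w) =
        roof T ((up T)^[r] w) + (place T m (num T m w + r) - place T m (num T m w)) by omega,
      Function.iterate_add_apply, h2, iterate_roof, ← Function.iterate_succ_apply' (up T)]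

theorem num_unwind {m : ℕ} (v : Dig T) : ∀ r ≤ num T m v, num T m ((down T)^[r] v) + r = num T m v := by
  intro r
  induction r with
  | zero => intro _; rfl
  | succ r ih =>
    intro hr
    have h := ih (by omega)
    have hlt := num_lt T m v
    rw [Function.iterate_succ_apply', num_down,
      show num T m ((down T)^[r] v) + (cnt T m - 1) = num T m ((down T)^[r] v) - 1 + cnt T m by omega,
      Nat.add_mod_right, Nat.mod_eq_of_lt (by omega)]
    omega

/-- The copies of the column `k` inside the column `m`. -/
theorem cell_level {m q i : ℕ} (hq : q < cnt T m) (hi : i = 0 ∨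
    (q + 1 < cnt T m ∧ i + place T m q < place T m (q + 1))) :
    {x | ((shift T).toEquiv ^ (-((place T m q + i : ℕ) : ℤ)) : Equiv.Perm (Space T)) x ∈ bot T m} =
      {x : Space T | num T m x.1 = q ∧ x.2 = i} := by
  have hup : ∀ w : Dig T, num T m w = 0 →
      num T m ((up T)^[q] w) = q ∧ (fwd T)^[place T m q + i] (w, 0) = ((up T)^[q] w, i) := by
    intro w hw
    have h1 := (climb T (m := m) w q (by omega)).2
    have hn := num_iter T (m := m) w q (by omega)
    rw [hw, zero_add] at h1 hn
    rw [place_zero_right, Nat.sub_zero] at h1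
    refine ⟨hn, ?_⟩
    rw [add_comm, Function.iterate_add_apply, h1]
    refine iterate_floor T _ ?_
    rcases hi with rfl | ⟨h2, h3⟩
    · exact roof_pos T _
    · have := roof_eq T (m := m) (w := (up T)^[q] w) (by omega)
      rw [hn] at this
      omega
  ext ⟨v, j⟩
  simp only [Set.mem_ofPred_eq, mem_level]
  constructor
  · rintro ⟨⟨w, l⟩, ⟨hw, hl⟩, he⟩
    simp only at hw hl
    subst hl
    rw [(hup w hw).2, Prod.mk.injEq] at he
    exact ⟨he.1 ▸ (hup w hw).1, he.2.symm⟩
  · rintro ⟨hv, rfl⟩
    have h0 := num_unwind T (m := m) v q (by omega)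
    refine ⟨((down T)^[q] v, 0), ⟨show num T m ((down T)^[q] v) = 0 by omega, rfl⟩, ?_⟩
    rw [(hup _ (by omega)).2, Function.LeftInverse.iterate (up_down T) q v]

theorem mu_floor (i : ℕ) {A : Set (Dig T)} (hA : MeasurableSet A)
    (hsub : ∀ w ∈ A, i < roof T w) :
    mu T {x | x.1 ∈ A ∧ x.2 = i} = (pre T Set.univ)⁻¹ * base T A := by
  have hE : MeasurableSet {x : Space T | x.1 ∈ A ∧ x.2 = i} :=
    (measurable_fst hA).inter (measurable_snd (measurableSet_singleton i))
  rw [mu, Measure.smul_apply, smul_eq_mul, pre_apply T hE, tsum_eq_single i]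
  · congr 2
    ext w
    simp only [Set.mem_ofPred_eq, and_true]
    exact ⟨fun h => h.2, fun h => ⟨hsub w h, h⟩⟩
  · intro b hb
    simp [hb]

theorem mu_null_fst {A : Set (Dig T)} (hA : MeasurableSet A) (h0 : base T A = 0) :
    mu T {x | x.1 ∈ A} = 0 := by
  rw [mu, Measure.smul_apply, smul_eq_mul, pre_apply T (E := {x : Space T | x.1 ∈ A}) (measurable_fst hA),
    ENNReal.tsum_eq_zero.2 fun i => measure_mono_null (fun w hw => hw.2) h0, mul_zero]

theorem mu_offroof : mu T {x | roof T x.1 ≤ x.2} = 0 := by
  rw [mu, Measure.smul_apply, smul_eq_mul, pre_apply T (E := {x : Space T | roof T x.1 ≤ x.2})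
      (measurableSet_le ((measurable_roof T).comp measurable_fst) measurable_snd),
    ENNReal.tsum_eq_zero.2 fun i => ?_, mul_zero]
  have : {w | i < roof T w ∧ (w, i) ∈ {x : Space T | roof T x.1 ≤ x.2}} = ∅ := by
    ext w; simp
  rw [this, measure_empty]

theorem return_null (k a : ℕ) (ha0 : 0 < a) (ha : a < T.h k) :
    mu T (bot T k ∩ (fun x => ((shift T).toEquiv ^ (-(a : ℤ)) : Equiv.Perm (Space T)) x) ⁻¹' bot T k) = 0 := by
  -- points whose column position leaves room for a whole copy of the column `k`
  set bad : Set (Dig T) := {w | ∀ m, cnt T m ≤ num T m w + cnt T k} with hbad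
  have hbadm : MeasurableSet bad := by
    have h : bad = ⋂ m, num T m ⁻¹' {q | cnt T m ≤ q + cnt T k} := by
      ext w; simp [hbad]
    rw [h]
    exact MeasurableSet.iInter fun m => measurable_num_pre T m _
  have hbad0 : base T bad = 0 := by
    refine le_antisymm ?_ bot_le
    have hle : ∀ m, base T bad ≤ (cnt T k : ℝ≥0∞) * (cnt T m : ℝ≥0∞)⁻¹ := by
      intro m
      have hsub : bad ⊆ ⋃ q ∈ Finset.Ico (cnt T m - cnt T k) (cnt T m), num T m ⁻¹' {q} := by
        intro w hw
        simp only [Set.mem_iUnion, Set.mem_preimage, Set.mem_singleton_iff]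
        exact ⟨_, Finset.mem_Ico.2 ⟨by have := hw m; omega, num_lt T m w⟩, rfl⟩
      refine (measure_mono hsub).trans ((measure_biUnion_finset_le _ _).trans ?_)
      refine (Finset.sum_le_sum fun q hq => (base_num T m q (Finset.mem_Ico.1 hq).2).le).trans ?_
      rw [Finset.sum_const, nsmul_eq_mul, Nat.card_Ico]
      exact mul_le_mul_left (Nat.cast_le.2 (by omega)) _
    refine ge_of_tendsto' (x := atTop) ?_ hle
    have h1 : Tendsto (fun m => (cnt T m : ℝ≥0∞)⁻¹) atTop (𝓝 0) :=
      ENNReal.tendsto_inv_nat_nhds_zero.comp (tendsto_atTop_mono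
        (fun m => (m.lt_two_pow_self.le).trans (two_pow_le_cnt T m)) tendsto_id)
    simpa using ENNReal.Tendsto.const_mul h1 (Or.inr (ENNReal.natCast_ne_top (cnt T k)))
  -- the forward image of a good base point misses the base
  have hgood : ∀ w, num T k w = 0 → w ∉ bad → (fwd T)^[a] (w, 0) ∉ bot T k := by
    intro w hw hwb hmem
    simp only [hbad, Set.mem_ofPred_eq, not_forall, not_le] at hwb
    obtain ⟨m, hm⟩ := hwb
    have hkm : k ≤ m := by
      by_contra hc
      have := Nat.le_of_dvd (cnt_pos T k) (cnt_dvd T (not_le.1 hc).le)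
      omega
    have hq0 : num T m w % cnt T k = 0 := by rw [num_mod T hkm, hw]
    have hgap := (place_gap T k m hkm _ (num_lt T m w) hq0).2 hm
    set q := num T m w with hq
    classical
    have hex : ∃ r, a < place T m (q + r) - place T m q := ⟨cnt T k, by omega⟩
    have hrk : Nat.find hex ≤ cnt T k := Nat.find_le (by omega)
    obtain ⟨r, hr⟩ : ∃ r, Nat.find hex = r + 1 := by
      refine ⟨Nat.find hex - 1, ?_⟩
      have hne : Nat.find hex ≠ 0 := fun h => by
        have := Nat.find_spec hex
        rw [h, add_zero] at this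
        omega
      omega
    have hhi : a < place T m (q + r + 1) - place T m q := by
      have h := Nat.find_spec hex
      rwa [hr, ← add_assoc] at h
    have hlo : place T m (q + r) - place T m q ≤ a :=
      not_lt.1 (Nat.find_min hex (by omega : r < Nat.find hex))
    obtain ⟨h1, h2⟩ := climb T (m := m) w r (by omega)
    have hn := num_iter T (m := m) w r (by omega)
    have hroof := roof_eq T (m := m) (w := (up T)^[r] w) (by omega)
    rw [hn] at hroof
    rw [← hq] at h1 h2 hn hroof
    have e : (fwd T)^[a] (w, 0) = ((up T)^[r] w, a - (place T m (q + r) - place T m q)) := by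
      conv_lhs => rw [show a = (a - (place T m (q + r) - place T m q)) +
        (place T m (q + r) - place T m q) by omega]
      rw [Function.iterate_add_apply, h2, iterate_floor T _ (by omega)]
    rw [e] at hmem
    obtain ⟨hnum, hz⟩ := hmem
    simp only at hnum hz
    rw [← num_mod T hkm, hn, Nat.add_mod, hq0, zero_add, Nat.mod_mod,
      Nat.mod_eq_of_lt (show r < cnt T k by omega)] at hnum
    rw [hnum, add_zero, Nat.sub_self] at hlo hz
    omega
  have hinv : (fun x => ((shift T).toEquiv ^ (-(a : ℤ)) : Equiv.Perm (Space T)) x) = (bwd T)^[a] := by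
    funext x
    rw [zpow_neg, zpow_natCast, ← inv_pow, Equiv.Perm.coe_pow]
    rfl
  refine measure_mono_null (t := ((bwd T)^[a]) ⁻¹' {x | x.1 ∈ bad}) ?_ ?_
  · rintro x ⟨hx, hx'⟩
    obtain ⟨⟨w, l⟩, hy, he⟩ := (mem_level T a x _).1 hx'
    obtain ⟨hw, hl⟩ := hy
    simp only at hw hl
    subst hl
    subst he
    simp only [Set.mem_preimage, Set.mem_ofPred_eq]
    rw [(Function.LeftInverse.iterate (bwd_fwd T) a) (w, 0)]
    by_contra hwb
    exact hgood w hw hwb hx
  · have hmp : MeasurePreserving (shift T) (mu T) (mu T) := by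
      refine ⟨(shift T).measurable, Measure.ext fun E hE => ?_⟩
      rw [Measure.map_apply (shift T).measurable hE, mu, Measure.smul_apply, Measure.smul_apply]
      exact congrArg _ (pre_shift T hE)
    have hb : MeasurePreserving ((bwd T)^[a]) (mu T) (mu T) := (hmp.symm (shift T)).iterate a
    have hbm : MeasurableSet {x : Space T | x.1 ∈ bad} := measurable_fst hbadm
    rw [hb.measure_preimage hbm.nullMeasurableSet, mu_null_fst T hbadm hbad0]

/-- The sets of one floor determined by finitely many digits. -/
def floors : Set (Set (Space T)) :=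
  {E | ∃ (m i : ℕ) (A : Set ℕ), E = {x | num T m x.1 ∈ A ∧ x.2 = i}}

theorem isPiSystem_floors : IsPiSystem (floors T) := by
  rintro _ ⟨m, i, A, rfl⟩ _ ⟨m', i', A', rfl⟩ hne
  obtain ⟨x, ⟨-, hx⟩, -, hx'⟩ := hne
  refine ⟨max m m', i, (fun q => q % cnt T m) ⁻¹' A ∩ (fun q => q % cnt T m') ⁻¹' A', ?_⟩
  subst hx hx'
  ext y
  simp only [Set.mem_inter_iff, Set.mem_ofPred_eq, Set.mem_preimage,
    num_mod T (le_max_left m m'), num_mod T (le_max_right m m')]
  tauto

theorem generateFrom_floors :
    (inferInstance : MeasurableSpace (Space T)) = MeasurableSpace.generateFrom (floors T) := by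
  refine le_antisymm ?_ (MeasurableSpace.generateFrom_le ?_)
  · let G : MeasurableSpace (Space T) := MeasurableSpace.generateFrom (floors T)
    have h2 : Measurable[G] fun x : Space T => x.2 := by
      refine measurable_to_countable' fun i => ?_
      exact MeasurableSpace.measurableSet_generateFrom ⟨0, i, Set.univ, by ext x; simp⟩
    have h1 : Measurable[G] fun x : Space T => x.1 := by
      refine measurable_pi_lambda _ fun n => measurable_to_countable' fun v => ?_
      have h : (fun x : Space T => x.1 n) ⁻¹' {v} =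
          ⋃ i, {x : Space T | num T (n + 1) x.1 ∈ {q | q / cnt T n = v.val} ∧ x.2 = i} := by
        ext x
        simp [digit_eq, Fin.ext_iff]
      rw [h]
      exact MeasurableSet.iUnion fun i => MeasurableSpace.measurableSet_generateFrom ⟨_, _, _, rfl⟩
    intro s hs
    exact (h1.prodMk h2) hs
  · rintro _ ⟨m, i, A, rfl⟩
    exact ((measurable_num_pre T m A).preimage measurable_fst).inter
      (measurable_snd (measurableSet_singleton i))

theorem levels_generate (g : Space T → ℂ) (hg : Integrable g (mu T))
    (hlev : ∀ k a, a < T.h k →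
      ∫ x in (fun x => ((shift T).toEquiv ^ (-(a : ℤ)) : Equiv.Perm (Space T)) x) ⁻¹' bot T k, g x ∂mu T = 0) :
    g =ᵐ[mu T] 0 := by
  have hcellm : ∀ m q i, MeasurableSet {x : Space T | num T m x.1 = q ∧ x.2 = i} := fun m q i =>
    ((measurable_num_pre T m {q}).preimage measurable_fst).inter
      (measurable_snd (measurableSet_singleton i))
  have hcell : ∀ m q i, q + 1 < cnt T m →
      ∫ x in {x : Space T | num T m x.1 = q ∧ x.2 = i}, g x ∂mu T = 0 := by
    intro m q i hq
    by_cases hi : i + place T m q < place T m (q + 1)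
    · rw [← cell_level T (m := m) (q := q) (i := i) (by omega) (Or.inr ⟨hq, hi⟩)]
      refine hlev m _ ?_
      have := place_lt T m hq
      omega
    · refine setIntegral_measure_zero _ (measure_mono_null ?_ (mu_offroof T))
      rintro ⟨w, j⟩ ⟨hw, hj⟩
      simp only at hw hj
      subst hw hj
      have := roof_eq T hq
      simp only [Set.mem_ofPred_eq]
      omega
  have hfloor : ∀ m i (A : Set ℕ), ∫ x in {x : Space T | num T m x.1 ∈ A ∧ x.2 = i}, g x ∂mu T = 0 := by
    intro m i A
    classical
    set S := {x : Space T | num T m x.1 ∈ A ∧ x.2 = i} with hS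
    have key : ∀ l, m ≤ l → ∫ x in S, g x ∂mu T =
        ∫ x in S ∩ {x | ¬ num T l x.1 + 1 < cnt T l}, g x ∂mu T := by
      intro l hl
      set F := (range (cnt T l)).filter fun q => q + 1 < cnt T l ∧ q % cnt T m ∈ A with hF
      have hgoodset : S ∩ {x | num T l x.1 + 1 < cnt T l} =
          ⋃ q ∈ F, {x : Space T | num T l x.1 = q ∧ x.2 = i} := by
        ext x
        simp only [hS, hF, Set.mem_inter_iff, Set.mem_ofPred_eq, Set.mem_iUnion, Finset.mem_filter,
          mem_range, exists_prop]
        constructor
        · rintro ⟨⟨hA, hi⟩, hlt⟩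
          exact ⟨_, ⟨num_lt T l _, hlt, by rwa [num_mod T hl]⟩, rfl, hi⟩
        · rintro ⟨q, ⟨_, hlt, hA⟩, hq, hi⟩
          subst hq
          exact ⟨⟨by rwa [num_mod T hl] at hA, hi⟩, hlt⟩
      have hzero : ∫ x in S ∩ {x | num T l x.1 + 1 < cnt T l}, g x ∂mu T = 0 := by
        rw [hgoodset, integral_biUnion_finset F (fun q _ => hcellm l q i) ?_ (fun q _ => hg.integrableOn)]
        · exact Finset.sum_eq_zero fun q hq => hcell l q i (Finset.mem_filter.1 hq).2.1
        · intro a _ b _ hab
          exact Set.disjoint_left.2 fun x hx hx' => hab (hx.1.symm.trans hx'.1)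
      have hm1 : MeasurableSet {x : Space T | num T l x.1 + 1 < cnt T l} :=
        (measurable_num_pre T l {q | q + 1 < cnt T l}).preimage measurable_fst
      have := integral_inter_add_sdiff (μ := mu T) (s := S) hm1 hg.integrableOn
      rw [hzero, zero_add] at this
      rw [← this]
      rfl
    have hz : Tendsto (fun l => ∫ x in S ∩ {x | ¬ num T l x.1 + 1 < cnt T l}, g x ∂mu T) atTop (𝓝 0) := by
      refine hg.tendsto_setIntegral_nhds_zero ?_
      have h1 : Tendsto (fun l => (pre T Set.univ)⁻¹ * (cnt T l : ℝ≥0∞)⁻¹) atTop (𝓝 0) := by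
        have h2 : Tendsto (fun l => (cnt T l : ℝ≥0∞)⁻¹) atTop (𝓝 0) :=
          ENNReal.tendsto_inv_nat_nhds_zero.comp (tendsto_atTop_mono
            (fun l => (l.lt_two_pow_self.le).trans (two_pow_le_cnt T l)) tendsto_id)
        simpa using ENNReal.Tendsto.const_mul h2
          (Or.inr (ENNReal.inv_ne_top.2 (pre_univ_ne_zero T)))
      refine tendsto_of_tendsto_of_tendsto_of_le_of_le tendsto_const_nhds h1 (fun l => bot_le)
        fun l => ?_
      have hA : MeasurableSet {w : Dig T | i < roof T w ∧ ¬ num T l w + 1 < cnt T l} :=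
        (measurableSet_floor T i).inter (measurable_num_pre T l {q | ¬ q + 1 < cnt T l})
      refine (measure_mono (t := {x : Space T | x.1 ∈ {w | i < roof T w ∧ ¬ num T l w + 1 < cnt T l} ∧
          x.2 = i} ∪ {x : Space T | roof T x.1 ≤ x.2}) ?_).trans ((measure_union_le _ _).trans ?_)
      · rintro x ⟨⟨-, hx⟩, hx'⟩
        rcases lt_or_ge x.2 (roof T x.1) with h | h
        · exact Or.inl ⟨⟨hx ▸ h, hx'⟩, hx⟩
        · exact Or.inr h
      · rw [mu_offroof, add_zero, mu_floor T i hA fun w hw => hw.1]
        exact mul_le_mul_right (le_trans (measure_mono fun w hw => hw.2) (exc_measure T l).le) _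
    exact tendsto_nhds_unique
      (tendsto_const_nhds.congr' (eventually_atTop.2 ⟨m, key⟩)) hz
  refine hg.ae_eq_zero_of_forall_setIntegral_eq_zero fun s hs _ => ?_
  refine MeasurableSpace.induction_on_inter
    (C := fun s _ => ∫ x in s, g x ∂mu T = 0) (generateFrom_floors T) (isPiSystem_floors T)
    (by simp) ?_ ?_ ?_ s hs
  · rintro _ ⟨m, i, A, rfl⟩
    exact hfloor m i A
  · intro t ht h0
    have huniv : ∫ x, g x ∂mu T = 0 := by
      have hU : (Set.univ : Set (Space T)) = ⋃ i : ℕ, {x | num T 0 x.1 ∈ Set.univ ∧ x.2 = i} := by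
        ext x; simp
      rw [← setIntegral_univ, hU, integral_iUnion ?_ ?_ hg.integrableOn]
      · exact (tsum_congr fun i => hfloor 0 i Set.univ).trans tsum_zero
      · exact fun i => ((measurable_num_pre T 0 Set.univ).preimage measurable_fst).inter
          (measurable_snd (measurableSet_singleton i))
      · intro a b hab
        exact Set.disjoint_left.2 fun x hx hx' => hab (hx.2.symm.trans hx'.2)
    have := integral_add_compl ht hg
    rw [h0, zero_add] at this
    rw [this, huniv]
  · intro f hd hf h0
    rw [integral_iUnion hf hd hg.integrableOn]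
    simp [h0]

instance : NullSingletonClass (mu T) := by
  refine ⟨fun x => ?_⟩
  obtain ⟨v, j⟩ := x
  have hv : base T {v} = 0 := by
    refine le_antisymm ?_ bot_le
    have hle : ∀ m, base T {v} ≤ (cnt T m : ℝ≥0∞)⁻¹ := fun m =>
      (measure_mono (by rintro w rfl; rfl : ({v} : Set (Dig T)) ⊆ num T m ⁻¹' {num T m v})).trans
        (base_num T m _ (num_lt T m v)).le
    exact ge_of_tendsto' (ENNReal.tendsto_inv_nat_nhds_zero.comp (tendsto_atTop_mono
      (fun l => (l.lt_two_pow_self.le).trans (two_pow_le_cnt T l)) tendsto_id)) hle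
  refine measure_mono_null ?_ (mu_null_fst T (measurableSet_singleton v) hv)
  rintro y rfl
  simp

end Stack

open Stack in
theorem stackStmt : StackStmt := by
  intro T
  set Z := pre T Set.univ with hZ
  have hZ0 := pre_univ_ne_zero T
  have hZt := pre_univ_ne_top T
  refine ⟨Space T, inferInstance, inferInstance, mu T, inferInstance, inferInstance, shift T, bot T,
    Z⁻¹.toReal, ⟨(shift T).measurable, Measure.ext fun E hE => ?_⟩,
    ENNReal.toReal_pos (ENNReal.inv_ne_zero.2 hZt) (ENNReal.inv_ne_top.2 hZ0), measurableSet_bot T,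
    fun k => ?_, fun k => Filter.Eventually.of_forall fun x => ?_, return_null T, levels_generate T⟩
  · rw [Measure.map_apply (shift T).measurable hE, mu, Measure.smul_apply, Measure.smul_apply]
    exact congrArg _ (pre_shift T hE)
  · have h : bot T k = {x | x.1 ∈ num T k ⁻¹' {0} ∧ x.2 = 0} := by ext x; simp [bot]
    rw [h, measureReal_def, mu_floor T 0 (measurable_num_pre T k _) (fun w _ => roof_pos T w),
      base_num T k 0 (cnt_pos T k), ENNReal.toReal_mul, ENNReal.toReal_inv (cnt T k : ℝ≥0∞),
      ENNReal.toReal_natCast, cnt, Nat.cast_prod, ← div_eq_mul_inv]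
  · have hlev : ∀ j ∈ range (T.p k),
        (bot T (k + 1)).indicator (fun _ => (1 : ℂ))
          (((shift T).toEquiv ^ (-(T.n k j : ℤ)) : Equiv.Perm (Space T)) x) =
        if num T (k + 1) x.1 = j * cnt T k ∧ x.2 = 0 then 1 else 0 := by
      intro j hj
      have hq : j * cnt T k < cnt T (k + 1) := by
        rw [cnt_succ, mul_comm j]
        exact Nat.mul_lt_mul_of_pos_left (mem_range.1 hj) (cnt_pos T k)
      have h := Set.ext_iff.1 (cell_level T (i := 0) hq (Or.inl rfl)) x
      simp only [place_cell, add_zero, Set.mem_ofPred_eq] at h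
      classical
      rw [Set.indicator_apply]
      exact if_congr h rfl rfl
    rw [Finset.sum_congr rfl hlev]
    classical
    rw [Set.indicator_apply]
    by_cases hx : x ∈ bot T k
    · obtain ⟨hn, hz⟩ := hx
      rw [if_pos ⟨hn, hz⟩, Finset.sum_eq_single (x.1 k).val]
      · rw [if_pos ⟨by rw [num_succ, hn, zero_add], hz⟩]
      · intro b _ hb
        rw [if_neg]
        rintro ⟨hb', -⟩
        rw [num_succ, hn, zero_add] at hb'
        exact hb (Nat.eq_of_mul_eq_mul_right (cnt_pos T k) hb').symm
      · intro hc
        exact absurd (mem_range.2 (x.1 k).isLt) hc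
    · rw [if_neg hx, Finset.sum_eq_zero]
      intro j _
      rw [if_neg]
      rintro ⟨hj, hz⟩
      refine hx ⟨?_, hz⟩
      rw [← num_mod T (Nat.le_succ k), hj, Nat.mul_mod_left]

end

end Vale.Agent.P130.Flat
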